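import Vale.Agent.P046.H822.Main

set_option autoImplicit false

open scoped Classical
open Filter Vale.Agent.P046

/-- The number `F_n` of edges left by random triangle removal, and the last phase of the
process.

(1) `F_n / n^{3/2} → 1 / (2 √2)` in probability, `E[F_n] / n^{3/2} → 1 / (2 √2)`, and
`E|F_n / n^{3/2} - 1 / (2 √2)| → 0`; every possible final graph is triangle-free.

(2) Let `x` be the number of edges that remain after `k` triangles have been removed, divided by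
`n^{3/2}`.  After `k` steps the number of triangles divided by `n^{3/2}` is close to
`max 0 (4/3 x³ - x/6)`, uniformly in `x ≤ L`.

(3) After `k` steps the number of edges divided by `n^{3/2}` is close to
`max x (1 / (2 √2))`, uniformly in `k`. -/
theorem Vale.Agent.Results.P046.CriticalWindow.result :
    ((∀ n : ℕ, ∀ H ∈ (finalGraph n).support, H.CliqueFree 3) ∧
      (∀ ε : ℝ, 0 < ε → Tendsto (fun n : ℕ => ((finalGraph n).toOuterMeasure
        {G | ε ≤ |(numEdges G : ℝ) / (n : ℝ) ^ (3 / 2 : ℝ) - 1 / (2 * √2)|}).toReal)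
        atTop (nhds 0)) ∧
      Tendsto (fun n : ℕ => (∑ G, (finalGraph n G).toReal * (numEdges G : ℝ)) /
        (n : ℝ) ^ (3 / 2 : ℝ)) atTop (nhds (1 / (2 * √2))) ∧
      Tendsto (fun n : ℕ => ∑ G, (finalGraph n G).toReal *
        |(numEdges G : ℝ) / (n : ℝ) ^ (3 / 2 : ℝ) - 1 / (2 * √2)|) atTop (nhds 0)) ∧
    (∀ L ε : ℝ, 0 < ε → ∃ n₀ : ℕ, ∀ n : ℕ, n₀ ≤ n → ∀ k : ℕ, 3 * k ≤ n.choose 2 →
      ∀ x : ℝ, x = ((n.choose 2 : ℝ) - 3 * k) / (n : ℝ) ^ (3 / 2 : ℝ) → x ≤ L →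
      ((run k (⊤ : SimpleGraph (Fin n))).toOuterMeasure
        {G | ε ≤ |((triangles G).card : ℝ) / (n : ℝ) ^ (3 / 2 : ℝ) -
          max 0 (4 / 3 * x ^ 3 - x / 6)|}).toReal ≤ ε) ∧
    (∀ ε : ℝ, 0 < ε → ∃ n₀ : ℕ, ∀ n : ℕ, n₀ ≤ n → ∀ k : ℕ, 3 * k ≤ n.choose 2 →
      ∀ x : ℝ, x = ((n.choose 2 : ℝ) - 3 * k) / (n : ℝ) ^ (3 / 2 : ℝ) →
      ((run k (⊤ : SimpleGraph (Fin n))).toOuterMeasure
        {G | ε ≤ |(numEdges G : ℝ) / (n : ℝ) ^ (3 / 2 : ℝ) -
          max x (1 / (2 * √2))|}).toReal ≤ ε) :=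
  ⟨⟨fun _ H hH => finalGraph_cliqueFree H hH, fun ε hε => Lv.prob_limit Lv.core ε hε,
    Lv.mean_limit Lv.core, Lv.l1_limit Lv.core⟩,
    fun L ε hε => H822.tri_clause L ε hε, fun ε hε => H822.edge_clause ε hε⟩
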