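import Vale.Agent.P046.Bdl.B6
import Vale.Agent.P046.H561.Lim

set_option autoImplicit false

open scoped Classical
open Filter Vale.Agent.P046

/-- Random triangle removal on `K_n`.  (1) The number `F_n` of surviving edges satisfies
`F_n / n^{3/2} → 1 / (2 √2)` in probability, in mean, and `E[F_n] / n^{3/2} → 1 / (2 √2)`.
(2) Every edge survives with probability `(1 + o(1)) / √(2n)`, and every vertex has mean degree
`(1 + o(1)) √(n/2)`.  (3) Two disjoint edges both survive with probability `(1 + o(1)) / (2n)`.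
(4) The law of large numbers for the number of surviving edges in a set `S` of pairs with
`|S| / D ≫ √n`, `D` the maximal degree of `S`.  (5) The same for all `S`, with an absolute error
`o(n^{3/2})` in quadratic mean.  All these are uniform over the edges, vertices and sets. -/
theorem Vale.Agent.Results.P046.Equidistribution.result :
    -- (1) the question
    ((∀ n : ℕ, ∀ H ∈ (finalGraph n).support, H.CliqueFree 3) ∧
    (∀ ε : ℝ, 0 < ε → Tendsto (fun n : ℕ => ((finalGraph n).toOuterMeasure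
      {G | ε ≤ |(numEdges G : ℝ) / (n : ℝ) ^ (3 / 2 : ℝ) - 1 / (2 * √2)|}).toReal)
      atTop (nhds 0)) ∧
    Tendsto (fun n : ℕ => (∑ G, (finalGraph n G).toReal * (numEdges G : ℝ)) /
      (n : ℝ) ^ (3 / 2 : ℝ)) atTop (nhds (1 / (2 * √2))) ∧
    Tendsto (fun n : ℕ => ∑ G, (finalGraph n G).toReal *
      |(numEdges G : ℝ) / (n : ℝ) ^ (3 / 2 : ℝ) - 1 / (2 * √2)|) atTop (nhds 0)) ∧
    -- (2) survival probability of an edge, mean degree of a vertex
    ((∀ ε : ℝ, 0 < ε → ∀ᶠ n : ℕ in atTop, ∀ u v : Fin n, u ≠ v →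
      |√(2 * n) * ((finalGraph n).toOuterMeasure {G | G.Adj u v}).toReal - 1| ≤ ε) ∧
    (∀ ε : ℝ, 0 < ε → ∀ᶠ n : ℕ in atTop, ∀ v : Fin n,
      |(∑ G, (finalGraph n G).toReal * (G.degree v : ℝ)) / √(n / 2) - 1| ≤ ε)) ∧
    -- (3) asymptotic independence of two disjoint edges
    (∀ ε : ℝ, 0 < ε → ∀ᶠ n : ℕ in atTop, ∀ u v x y : Fin n, u ≠ v → x ≠ y →
      u ≠ x → u ≠ y → v ≠ x → v ≠ y →
      |2 * n * ((finalGraph n).toOuterMeasure {G | G.Adj u v ∧ G.Adj x y}).toReal - 1| ≤ ε) ∧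
    -- (4) law of large numbers for the surviving edges in a given set of pairs
    (∀ ε : ℝ, 0 < ε → ∀ᶠ n : ℕ in atTop,
      ∀ (S : Finset (Sym2 (Fin n))) (D : ℕ), (∀ e ∈ S, ¬ e.IsDiag) → S.Nonempty →
        (∀ v, (S.filter fun e => v ∈ e).card ≤ D) → 8 * D * √n ≤ ε * S.card →
        ∑ G, (finalGraph n G).toReal *
          (((S.filter fun e => e ∈ G.edgeSet).card : ℝ) / (S.card / √(2 * n)) - 1) ^ 2 ≤ ε) ∧
    -- (5) equidistribution over all sets of pairs
    (∀ ε : ℝ, 0 < ε → ∀ᶠ n : ℕ in atTop,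
      ∀ S : Finset (Sym2 (Fin n)), (∀ e ∈ S, ¬ e.IsDiag) →
        ∑ G, (finalGraph n G).toReal *
          (((S.filter fun e => e ∈ G.edgeSet).card : ℝ) - S.card / √(2 * n)) ^ 2 ≤
            ε * (n : ℝ) ^ 3) :=
  ⟨⟨fun _ H hH => finalGraph_cliqueFree H hH, fun ε hε => Lv.prob_limit Lv.core ε hε,
    Lv.mean_limit Lv.core, Lv.l1_limit Lv.core⟩, ⟨H561.edge_prob, H561.mean_degree⟩,
    H561.pair_prob, H561.relative, H561.equidistribution⟩
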