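import Vale.Agent.P046.H796.L2

set_option autoImplicit false

open scoped Classical
open Filter Vale.Agent.P046

/-- The number `F_n` of edges left by random triangle removal, normalised by `n^{3/2}`, converges
to `1 / (2 √2)` in probability, in mean and in quadratic mean; hence `E[F_n²] ∼ n³/8` and
`Var F_n = o(n³)`.  The tails satisfy `P(F_n ≥ x n^{3/2}) ≤ C / x⁴` and
`E[F_n²; F_n ≥ x n^{3/2}] ≤ C n³ / x²` for all `n ≥ 2` and `0 < x ≤ n^{1/1200}`. -/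
theorem Vale.Agent.Results.P046.QuadraticMean.result :
    -- the process has stopped
    (∀ n : ℕ, ∀ H ∈ (finalGraph n).support, H.CliqueFree 3) ∧
    -- convergence in probability, of the mean, in mean
    (∀ ε : ℝ, 0 < ε → Tendsto (fun n : ℕ => ((finalGraph n).toOuterMeasure
      {G | ε ≤ |(numEdges G : ℝ) / (n : ℝ) ^ (3 / 2 : ℝ) - 1 / (2 * √2)|}).toReal)
      atTop (nhds 0)) ∧
    Tendsto (fun n : ℕ => (∑ G, (finalGraph n G).toReal * (numEdges G : ℝ)) /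
      (n : ℝ) ^ (3 / 2 : ℝ)) atTop (nhds (1 / (2 * √2))) ∧
    Tendsto (fun n : ℕ => ∑ G, (finalGraph n G).toReal *
      |(numEdges G : ℝ) / (n : ℝ) ^ (3 / 2 : ℝ) - 1 / (2 * √2)|) atTop (nhds 0) ∧
    -- convergence in quadratic mean
    Tendsto (fun n : ℕ => ∑ G, (finalGraph n G).toReal *
      ((numEdges G : ℝ) / (n : ℝ) ^ (3 / 2 : ℝ) - 1 / (2 * √2)) ^ 2) atTop (nhds 0) ∧
    -- second moment and variance
    Tendsto (fun n : ℕ => (∑ G, (finalGraph n G).toReal * (numEdges G : ℝ) ^ 2) / (n : ℝ) ^ 3)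
      atTop (nhds (1 / 8)) ∧
    Tendsto (fun n : ℕ => ((∑ G, (finalGraph n G).toReal * (numEdges G : ℝ) ^ 2) -
      (∑ G, (finalGraph n G).toReal * (numEdges G : ℝ)) ^ 2) / (n : ℝ) ^ 3) atTop (nhds 0) ∧
    -- tails, uniformly in `n`
    ∃ C : ℝ, 0 < C ∧ ∀ n : ℕ, 2 ≤ n → ∀ x : ℝ, 0 < x → x ≤ (n : ℝ) ^ (1 / 1200 : ℝ) →
      ((finalGraph n).toOuterMeasure
        {G | x * (n : ℝ) ^ (3 / 2 : ℝ) ≤ (numEdges G : ℝ)}).toReal ≤ C / x ^ 4 ∧
      ∑ G, (finalGraph n G).toReal *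
        (if x * (n : ℝ) ^ (3 / 2 : ℝ) ≤ (numEdges G : ℝ) then (numEdges G : ℝ) ^ 2 else 0) ≤
          C * (n : ℝ) ^ 3 / x ^ 2 :=
  ⟨fun _ H hH => finalGraph_cliqueFree H hH, fun ε hε => Lv.prob_limit Lv.core ε hε,
    Lv.mean_limit Lv.core, Lv.l1_limit Lv.core, Lv.l2_limit, Lv.square_limit, Lv.variance_limit,
    Lv.tails⟩
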