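import Vale.Agent.P046.H621.Q8

set_option autoImplicit false

open scoped Classical
open Filter Vale.Agent.P046

/-- The number `F_n` of edges left by random triangle removal on `K_n`, normalised by `n^{3/2}`,
converges to `1 / (2 √2)` in probability, in mean and in `L¹`.  The same holds, uniformly, for
the process started at any dense graph whose codegrees are all close to their mean, and for the
process started at the binomial random graph `G(n, p)` of any constant density `p`. -/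
theorem Vale.Agent.Results.P046.QuasirandomStart.result :
    -- (1) the process started at `K_n`: it has stopped; limit in probability, mean, `L¹`
    ((∀ n : ℕ, ∀ H ∈ (finalGraph n).support, H.CliqueFree 3) ∧
    (∀ ε : ℝ, 0 < ε → Tendsto (fun n : ℕ => ((finalGraph n).toOuterMeasure
      {G | ε ≤ |(numEdges G : ℝ) / (n : ℝ) ^ (3 / 2 : ℝ) - 1 / (2 * √2)|}).toReal)
      atTop (nhds 0)) ∧
    Tendsto (fun n : ℕ => (∑ G, (finalGraph n G).toReal * (numEdges G : ℝ)) /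
      (n : ℝ) ^ (3 / 2 : ℝ)) atTop (nhds (1 / (2 * √2))) ∧
    Tendsto (fun n : ℕ => ∑ G, (finalGraph n G).toReal *
      |(numEdges G : ℝ) / (n : ℝ) ^ (3 / 2 : ℝ) - 1 / (2 * √2)|) atTop (nhds 0)) ∧
    -- (2) the process started at a dense graph `G₀` with small codegree deviations
    ((∀ (n : ℕ) (G₀ : SimpleGraph (Fin n)), ∀ H ∈ (run (n.choose 2) G₀).support,
      H.CliqueFree 3) ∧
    ∀ c₀ ε : ℝ, 0 < c₀ → 0 < ε → ∃ n₀ : ℕ, ∀ n : ℕ, n₀ ≤ n →
      ∀ G₀ : SimpleGraph (Fin n), c₀ * (n : ℝ) ^ 2 ≤ numEdges G₀ →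
      (∀ u v, u ≠ v → |((G₀.commonNeighbors u v).ncard : ℝ) -
        4 * (numEdges G₀ : ℝ) ^ 2 / (n : ℝ) ^ 3| ≤ (n : ℝ) ^ (1 / 2 + 1 / 2400 : ℝ)) →
      ∑ G, (run (n.choose 2) G₀ G).toReal *
        |(numEdges G : ℝ) / (n : ℝ) ^ (3 / 2 : ℝ) - 1 / (2 * √2)| ≤ ε) ∧
    -- (3) the process started at the binomial random graph `G(n, p)`
    ∀ p : ℝ, 0 < p → p ≤ 1 → Tendsto (fun n : ℕ => ∑ G₀ : SimpleGraph (Fin n),
      p ^ numEdges G₀ * (1 - p) ^ (n.choose 2 - numEdges G₀) *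
        ∑ G, (run (n.choose 2) G₀ G).toReal *
          |(numEdges G : ℝ) / (n : ℝ) ^ (3 / 2 : ℝ) - 1 / (2 * √2)|) atTop (nhds 0) :=
  ⟨⟨fun _ H hH => finalGraph_cliqueFree H hH, fun ε hε => Lv.prob_limit Lv.core ε hε,
    Lv.mean_limit Lv.core, Lv.l1_limit Lv.core⟩,
    ⟨fun _ G₀ H hH => QS.run_cliqueFree G₀ H hH, fun c₀ ε hc hε => QS.quasirandom c₀ ε hc hε⟩,
    fun p hp0 hp1 => QS.gnp p hp0 hp1⟩
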